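import Vale.Agent.P151.TC.H510.Def

/-!
# The three-cluster inequality

In a finite graph with independent edges let `al` be an increasing property of the own cluster of
a vertex. If `x` and `y` have the property and lie in distinct clusters with positive probability,
then under this condition every vertex `z` keeps the property with at least `1 / 11` of its
probability. The proof is one induction over the exploration of the cluster of `z`.
-/

set_option autoImplicit false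
set_option linter.unusedSectionVars false
set_option linter.unusedVariables false

open Finset

namespace Vale.Agent.P151.TC.H295

open Vale.Agent.P151 Vale.Agent.P151.QP

variable {V : Type*} [DecidableEq V]

/-! ### Adding an edge which does not touch the cluster -/

lemma cl_insert_of {T : Finset (Sym2 V)} {c u x : V} (hc : ¬ Cn T x c) (hu : ¬ Cn T x u) :
    cl (insert s(c, u) T) x = cl T x := by
  ext v
  rw [mem_cl, mem_cl, Cn_insert]
  constructor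
  · rintro (h | ⟨h, _⟩ | ⟨h, _⟩)
    · exact h
    · exact absurd h hc
    · exact absurd h hu
  · exact Or.inl

lemma cl_insert_of' {T : Finset (Sym2 V)} {c u x : V} (hc : ¬ Cn (insert s(c, u) T) x c) :
    cl (insert s(c, u) T) x = cl T x := by
  apply cl_insert_of
  · exact fun h => hc (h.mono (Finset.subset_insert _ _))
  · intro h
    apply hc
    exact (h.mono (Finset.subset_insert _ _)).trans
      (Cn_of_mem (Finset.mem_insert_self _ _)).symm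

/-! ### Expectations in a state of the exploration -/

/-- The expectation of `f` given that the edges of `S0` are open, those of `Λ` are not revealed
and all other edges are closed. -/
noncomputable def Est (p : ℝ) (Λ S0 : Finset (Sym2 V)) (f : Finset (Sym2 V) → ℝ) : ℝ :=
  Ex p Λ (fun S => f (S0 ∪ S))

lemma Est_step (p : ℝ) {Λ : Finset (Sym2 V)} (S0 : Finset (Sym2 V)) {e : Sym2 V} (he : e ∈ Λ)
    (f : Finset (Sym2 V) → ℝ) :
    Est p Λ S0 f = p * Est p (Λ.erase e) (insert e S0) f + (1 - p) * Est p (Λ.erase e) S0 f := by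
  unfold Est
  conv_lhs => rw [← Finset.insert_erase he]
  rw [Ex_insert p (Finset.notMem_erase e Λ)]
  simp only [Finset.union_insert, Finset.insert_union]

lemma Est_open (p : ℝ) (Λ S0 : Finset (Sym2 V)) (e : Sym2 V) (f : Finset (Sym2 V) → ℝ) :
    Est p Λ (insert e S0) f = Est p Λ S0 (fun T => f (insert e T)) := by
  unfold Est
  simp only [Finset.insert_union]

lemma Est_mono {p : ℝ} (h0 : 0 ≤ p) (h1 : p ≤ 1) {Λ S0 : Finset (Sym2 V)}
    {f g : Finset (Sym2 V) → ℝ} (h : ∀ T, S0 ⊆ T → f T ≤ g T) :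
    Est p Λ S0 f ≤ Est p Λ S0 g :=
  Ex_mono h0 h1 fun S _ => h _ Finset.subset_union_left

lemma Est_nonneg {p : ℝ} (h0 : 0 ≤ p) (h1 : p ≤ 1) {Λ S0 : Finset (Sym2 V)}
    {f : Finset (Sym2 V) → ℝ} (h : ∀ T, S0 ⊆ T → 0 ≤ f T) : 0 ≤ Est p Λ S0 f :=
  Ex_nonneg h0 h1 fun S _ => h _ Finset.subset_union_left

lemma Est_add (p : ℝ) (Λ S0 : Finset (Sym2 V)) (f g : Finset (Sym2 V) → ℝ) :
    Est p Λ S0 (fun T => f T + g T) = Est p Λ S0 f + Est p Λ S0 g := Ex_add _ _ _ _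

lemma Est_sub (p : ℝ) (Λ S0 : Finset (Sym2 V)) (f g : Finset (Sym2 V) → ℝ) :
    Est p Λ S0 (fun T => f T - g T) = Est p Λ S0 f - Est p Λ S0 g := Ex_sub _ _ _ _

lemma Est_sum {κ : Type*} (p : ℝ) (Λ S0 : Finset (Sym2 V)) (s : Finset κ)
    (f : κ → Finset (Sym2 V) → ℝ) :
    Est p Λ S0 (fun T => ∑ k ∈ s, f k T) = ∑ k ∈ s, Est p Λ S0 (f k) := Ex_sum _ _ _ _

variable (al : Finset V → Prop) (x y z u : V)

/-- The event that `z` has the property `al`. -/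
noncomputable def fL (T : Finset (Sym2 V)) : ℝ := I1 (al (cl T z))
/-- The event that the clusters of `x`, `y` are `X`, `Y`. -/
noncomputable def fW (X Y : Finset V) (T : Finset (Sym2 V)) : ℝ := I1 (cl T x = X ∧ cl T y = Y)
/-- The event that the clusters of `x`, `y` are `X`, `Y` and `z` has the property `al`. -/
noncomputable def fZ (X Y : Finset V) (T : Finset (Sym2 V)) : ℝ :=
  I1 (cl T x = X ∧ cl T y = Y ∧ al (cl T z))
/-- `K_y = Y`, `x` is `al`, `z` is joined to `x`. -/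
noncomputable def fH (Y : Finset V) (T : Finset (Sym2 V)) : ℝ :=
  I1 (cl T y = Y ∧ al (cl T x) ∧ Cn T z x)
/-- `K_y = Y`, `x` is `al`, `z` is not joined to `x`. -/
noncomputable def fR (Y : Finset V) (T : Finset (Sym2 V)) : ℝ :=
  I1 (cl T y = Y ∧ al (cl T x) ∧ ¬ Cn T z x)
/-- `K_y = Y`, `x` is `al`, `z` is not joined to `x`, `u` is joined to `x`. -/
noncomputable def fP (Y : Finset V) (T : Finset (Sym2 V)) : ℝ :=
  I1 (cl T y = Y ∧ al (cl T x) ∧ ¬ Cn T z x ∧ Cn T u x)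

section pointwise

variable {al x y z u} {c : V} {T : Finset (Sym2 V)} {X Y : Finset V}

lemma fW_drop (hzc : Cn T z c) (hX : z ∉ X) (hY : z ∉ Y) :
    fW x y X Y T - fW x y X Y (insert s(c, u) T) ≤
      I1 (cl T x = X ∧ cl T y = Y ∧ u ∈ X) + I1 (cl T x = X ∧ cl T y = Y ∧ u ∈ Y) := by
  have n1 := I1_nonneg (cl T x = X ∧ cl T y = Y ∧ u ∈ X)
  have n2 := I1_nonneg (cl T x = X ∧ cl T y = Y ∧ u ∈ Y)
  by_cases h : cl T x = X ∧ cl T y = Y
  · obtain ⟨hx, hy⟩ := h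
    by_cases h1 : u ∈ X
    · rw [I1_true (P := cl T x = X ∧ cl T y = Y ∧ u ∈ X) ⟨hx, hy, h1⟩]
      have a := I1_le_one (cl T x = X ∧ cl T y = Y)
      have b := I1_nonneg (cl (insert s(c, u) T) x = X ∧ cl (insert s(c, u) T) y = Y)
      unfold fW; linarith
    by_cases h2 : u ∈ Y
    · rw [I1_true (P := cl T x = X ∧ cl T y = Y ∧ u ∈ Y) ⟨hx, hy, h2⟩]
      have a := I1_le_one (cl T x = X ∧ cl T y = Y)
      have b := I1_nonneg (cl (insert s(c, u) T) x = X ∧ cl (insert s(c, u) T) y = Y)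
      unfold fW; linarith
    have cx : ¬ Cn T x c := fun h => hX (by rw [← hx, mem_cl]; exact h.trans hzc.symm)
    have cy : ¬ Cn T y c := fun h => hY (by rw [← hy, mem_cl]; exact h.trans hzc.symm)
    have ux : ¬ Cn T x u := fun h => h1 (by rw [← hx, mem_cl]; exact h)
    have uy : ¬ Cn T y u := fun h => h2 (by rw [← hy, mem_cl]; exact h)
    unfold fW
    rw [cl_insert_of cx ux, cl_insert_of cy uy]
    linarith
  · unfold fW
    rw [I1_false h]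
    have b := I1_nonneg (cl (insert s(c, u) T) x = X ∧ cl (insert s(c, u) T) y = Y)
    linarith

lemma fH_gain (hal : ∀ A B : Finset V, A ⊆ B → al A → al B) (hzc : Cn T z c) (hY : z ∉ Y)
    (hu : u ∉ Y) :
    fP al x y z u Y T + fH al x y z Y T ≤ fH al x y z Y (insert s(c, u) T) := by
  have hsub : T ⊆ insert s(c, u) T := Finset.subset_insert _ _
  have key : ∀ (h1 : cl T y = Y), cl (insert s(c, u) T) y = Y := by
    intro h1
    rw [cl_insert_of, h1]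
    · exact fun h => hY (by rw [← h1, mem_cl]; exact h.trans hzc.symm)
    · exact fun h => hu (by rw [← h1, mem_cl]; exact h)
  by_cases h : cl T y = Y ∧ al (cl T x) ∧ ¬ Cn T z x ∧ Cn T u x
  · have e1 : fH al x y z Y T = 0 := I1_false (fun h' => h.2.2.1 h'.2.2)
    have e2 : fH al x y z Y (insert s(c, u) T) = 1 := by
      apply I1_true
      refine ⟨key h.1, hal _ _ (cl_mono hsub x) h.2.1, ?_⟩
      exact (hzc.mono hsub).trans ((Cn_of_mem (Finset.mem_insert_self _ _)).trans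
        (h.2.2.2.mono hsub))
    have e3 : fP al x y z u Y T = 1 := I1_true h
    rw [e1, e2, e3]; norm_num
  · have e3 : fP al x y z u Y T = 0 := I1_false h
    rw [e3, zero_add]
    apply I1_mono
    rintro ⟨h1, h2, h3⟩
    exact ⟨key h1, hal _ _ (cl_mono hsub x) h2, h3.mono hsub⟩

lemma fR_loss (hzc : Cn T z c) (hY : z ∉ Y) :
    fR al x y z Y (insert s(c, u) T) ≤ fR al x y z Y T := by
  have hsub : T ⊆ insert s(c, u) T := Finset.subset_insert _ _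
  apply I1_mono
  rintro ⟨h1, h2, h3⟩
  have cy : ¬ Cn (insert s(c, u) T) y c := fun h => hY (by
    rw [← h1, mem_cl]; exact h.trans (hzc.mono hsub).symm)
  have cx : ¬ Cn (insert s(c, u) T) x c := fun h => h3 ((hzc.mono hsub).trans h.symm)
  rw [cl_insert_of' cy] at h1
  rw [cl_insert_of' cx] at h2
  exact ⟨h1, h2, fun h => h3 (h.mono hsub)⟩

lemma fH_zero (hzc : Cn T z c) (hY : z ∉ Y) (hu : u ∈ Y) :
    fH al x y z Y (insert s(c, u) T) = 0 := by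
  have hsub : T ⊆ insert s(c, u) T := Finset.subset_insert _ _
  apply I1_false
  rintro ⟨h1, -, -⟩
  rw [← h1, mem_cl] at hu
  apply hY
  rw [← h1, mem_cl]
  exact hu.trans ((Cn_of_mem (Finset.mem_insert_self _ _)).symm.trans (hzc.mono hsub).symm)

lemma fR_zero (hzc : Cn T z c) (hY : z ∉ Y) (hu : u ∈ Y) :
    fR al x y z Y (insert s(c, u) T) = 0 := by
  have hsub : T ⊆ insert s(c, u) T := Finset.subset_insert _ _
  apply I1_false
  rintro ⟨h1, -, -⟩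
  rw [← h1, mem_cl] at hu
  apply hY
  rw [← h1, mem_cl]
  exact hu.trans ((Cn_of_mem (Finset.mem_insert_self _ _)).symm.trans (hzc.mono hsub).symm)

lemma fP_zero (hY : x ∉ Y) (hu : u ∈ Y) : fP al x y z u Y T = 0 := by
  apply I1_false
  rintro ⟨h1, -, -, h4⟩
  rw [← h1, mem_cl] at hu
  apply hY
  rw [← h1, mem_cl]
  exact hu.trans h4

lemma sum_I1_le {ι : Type*} (s : Finset ι) (P : ι → Prop) (Q : Prop)
    (h : ∀ i ∈ s, P i → Q) (huniq : ∀ i ∈ s, ∀ j ∈ s, P i → P j → i = j) :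
    ∑ i ∈ s, I1 (P i) ≤ I1 Q := by
  by_cases hex : ∃ i ∈ s, P i
  · obtain ⟨i, hi, hPi⟩ := hex
    rw [I1_true (h i hi hPi), Finset.sum_eq_single_of_mem i hi, I1_true hPi]
    intro j hj hji
    exact I1_false fun hPj => hji (huniq j hj i hi hPj hPi)
  · push Not at hex
    rw [Finset.sum_eq_zero (fun i hi => I1_false (hex i hi))]
    exact I1_nonneg Q

end pointwise


section sums

variable {al x y z u} {T : Finset (Sym2 V)} {X Y : Finset V}

lemma sum_fW_le (𝒳 : Finset (Finset V)) (h : ∀ X ∈ 𝒳, al X ∧ y ∉ X ∧ z ∉ X) :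
    ∑ X ∈ 𝒳, fW x y X Y T ≤ fR al x y z Y T := by
  apply sum_I1_le
  · rintro X hX ⟨h1, h2⟩
    obtain ⟨a, -, b⟩ := h X hX
    refine ⟨h2, h1 ▸ a, fun hz => b ?_⟩
    rw [← h1, mem_cl]
    exact hz.symm
  · rintro X - X' - ⟨h1, -⟩ ⟨h2, -⟩
    rw [← h1, ← h2]

lemma sum_fW_le' (𝒴 : Finset (Finset V)) (h : ∀ Y ∈ 𝒴, al Y ∧ x ∉ Y ∧ z ∉ Y) :
    ∑ Y ∈ 𝒴, fW x y X Y T ≤ fR al y x z X T := by
  apply sum_I1_le
  · rintro Y hY ⟨h1, h2⟩
    obtain ⟨a, -, b⟩ := h Y hY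
    refine ⟨h1, h2 ▸ a, fun hz => b ?_⟩
    rw [← h2, mem_cl]
    exact hz.symm
  · rintro Y - Y' - ⟨-, h1⟩ ⟨-, h2⟩
    rw [← h1, ← h2]

lemma sum_fP_le (𝒳 : Finset (Finset V)) (h : ∀ X ∈ 𝒳, al X ∧ y ∉ X ∧ z ∉ X) :
    ∑ X ∈ 𝒳, I1 (cl T x = X ∧ cl T y = Y ∧ u ∈ X) ≤ fP al x y z u Y T := by
  apply sum_I1_le
  · rintro X hX ⟨h1, h2, h3⟩
    obtain ⟨a, -, b⟩ := h X hX
    refine ⟨h2, h1 ▸ a, fun hz => b ?_, ?_⟩
    · rw [← h1, mem_cl]
      exact hz.symm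
    · rw [← h1, mem_cl] at h3
      exact h3.symm
  · rintro X - X' - ⟨h1, -⟩ ⟨h2, -⟩
    rw [← h1, ← h2]

lemma sum_fP_le' (𝒴 : Finset (Finset V)) (h : ∀ Y ∈ 𝒴, al Y ∧ x ∉ Y ∧ z ∉ Y) :
    ∑ Y ∈ 𝒴, I1 (cl T x = X ∧ cl T y = Y ∧ u ∈ Y) ≤ fP al y x z u X T := by
  apply sum_I1_le
  · rintro Y hY ⟨h1, h2, h3⟩
    obtain ⟨a, -, b⟩ := h Y hY
    refine ⟨h1, h2 ▸ a, fun hz => b ?_, ?_⟩
    · rw [← h2, mem_cl]
      exact hz.symm
    · rw [← h2, mem_cl] at h3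
      exact h3.symm
  · rintro Y - Y' - ⟨-, h1, -⟩ ⟨-, h2, -⟩
    rw [← h1, ← h2]

lemma fL_mono (hal : ∀ A B : Finset V, A ⊆ B → al A → al B) {T' : Finset (Sym2 V)} (h : T ⊆ T') :
    fL al z T ≤ fL al z T' :=
  I1_mono fun h' => hal _ _ (cl_mono h z) h'

end sums

/-! ### The main induction -/

section main

variable (p : ℝ)

/-- The cost of one set `Y` in a state. -/
noncomputable def Phi (Λ S0 : Finset (Sym2 V)) (Y : Finset V) : ℝ :=
  Est p Λ S0 (fH al x y z Y) * (5 - Est p Λ S0 (fL al z)) +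
    Est p Λ S0 (fR al x y z Y) * Est p Λ S0 (fL al z) / 4

/-- The defect of one pair `X`, `Y` in a state. -/
noncomputable def Dt (Λ S0 : Finset (Sym2 V)) (X Y : Finset V) : ℝ :=
  Est p Λ S0 (fW x y X Y) * Est p Λ S0 (fL al z) - Est p Λ S0 (fZ al x y z X Y)

variable {al x y z u p}

lemma L_nonneg (h0 : 0 ≤ p) (h1 : p ≤ 1) (Λ S0 : Finset (Sym2 V)) :
    0 ≤ Est p Λ S0 (fL al z) := Est_nonneg h0 h1 fun _ _ => I1_nonneg _

lemma L_le_one (h0 : 0 ≤ p) (h1 : p ≤ 1) (Λ S0 : Finset (Sym2 V)) :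
    Est p Λ S0 (fL al z) ≤ 1 := by
  have := Ex_le_const (Λ := Λ) (F := fun S => fL al z (S0 ∪ S)) (c := 1) h0 h1
    (fun S _ => I1_le_one _)
  exact this

lemma H_nonneg (h0 : 0 ≤ p) (h1 : p ≤ 1) (Λ S0 : Finset (Sym2 V)) (Y : Finset V) :
    0 ≤ Est p Λ S0 (fH al x y z Y) := Est_nonneg h0 h1 fun _ _ => I1_nonneg _

lemma R_nonneg (h0 : 0 ≤ p) (h1 : p ≤ 1) (Λ S0 : Finset (Sym2 V)) (Y : Finset V) :
    0 ≤ Est p Λ S0 (fR al x y z Y) := Est_nonneg h0 h1 fun _ _ => I1_nonneg _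

lemma Z_nonneg (h0 : 0 ≤ p) (h1 : p ≤ 1) (Λ S0 : Finset (Sym2 V)) (X Y : Finset V) :
    0 ≤ Est p Λ S0 (fZ al x y z X Y) := Est_nonneg h0 h1 fun _ _ => I1_nonneg _

lemma Phi_nonneg (h0 : 0 ≤ p) (h1 : p ≤ 1) (Λ S0 : Finset (Sym2 V)) (Y : Finset V) :
    0 ≤ Phi al x y z p Λ S0 Y := by
  have a := L_nonneg (al := al) (z := z) h0 h1 Λ S0
  have b := L_le_one (al := al) (z := z) h0 h1 Λ S0
  have c := H_nonneg (al := al) (x := x) (y := y) (z := z) h0 h1 Λ S0 Y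
  have d := R_nonneg (al := al) (x := x) (y := y) (z := z) h0 h1 Λ S0 Y
  unfold Phi
  have e := mul_nonneg c (by linarith : 0 ≤ 5 - Est p Λ S0 (fL al z))
  have f := mul_nonneg d a
  linarith

/-- Deleting a set `Y` for which `z` joins `x` with a good proportion. -/
lemma row_le (h0 : 0 ≤ p) (h1 : p ≤ 1) (Λ S0 : Finset (Sym2 V)) (𝒳 : Finset (Finset V))
    (Y : Finset V) (h : ∀ X ∈ 𝒳, al X ∧ y ∉ X ∧ z ∉ X)
    (hs : Est p Λ S0 (fR al x y z Y) ≤ 4 * Est p Λ S0 (fH al x y z Y)) :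
    ∑ X ∈ 𝒳, Dt al x y z p Λ S0 X Y ≤ Phi al x y z p Λ S0 Y := by
  have a := L_nonneg (al := al) (z := z) h0 h1 Λ S0
  have b := L_le_one (al := al) (z := z) h0 h1 Λ S0
  have c := H_nonneg (al := al) (x := x) (y := y) (z := z) h0 h1 Λ S0 Y
  have d := R_nonneg (al := al) (x := x) (y := y) (z := z) h0 h1 Λ S0 Y
  have e : ∑ X ∈ 𝒳, Dt al x y z p Λ S0 X Y ≤
      (∑ X ∈ 𝒳, Est p Λ S0 (fW x y X Y)) * Est p Λ S0 (fL al z) := by
    rw [Finset.sum_mul]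
    apply Finset.sum_le_sum
    intro X _
    have := Z_nonneg (al := al) (x := x) (y := y) (z := z) h0 h1 Λ S0 X Y
    unfold Dt
    linarith
  have f : ∑ X ∈ 𝒳, Est p Λ S0 (fW x y X Y) ≤ Est p Λ S0 (fR al x y z Y) := by
    rw [← Est_sum]
    exact Est_mono h0 h1 fun T _ => sum_fW_le 𝒳 h
  have g := mul_le_mul_of_nonneg_right f a
  have i := mul_le_mul_of_nonneg_right hs a
  have j := mul_nonneg c (by linarith : 0 ≤ 1 - Est p Λ S0 (fL al z))
  have k := mul_nonneg d a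
  have m := mul_nonneg c a
  unfold Phi
  nlinarith

/-- Deleting a set `X` for which `z` joins `y` with a good proportion. -/
lemma col_le (h0 : 0 ≤ p) (h1 : p ≤ 1) (Λ S0 : Finset (Sym2 V)) (𝒴 : Finset (Finset V))
    (X : Finset V) (h : ∀ Y ∈ 𝒴, al Y ∧ x ∉ Y ∧ z ∉ Y)
    (hs : Est p Λ S0 (fR al y x z X) ≤ 4 * Est p Λ S0 (fH al y x z X)) :
    ∑ Y ∈ 𝒴, Dt al x y z p Λ S0 X Y ≤ Phi al y x z p Λ S0 X := by
  have a := L_nonneg (al := al) (z := z) h0 h1 Λ S0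
  have b := L_le_one (al := al) (z := z) h0 h1 Λ S0
  have c := H_nonneg (al := al) (x := y) (y := x) (z := z) h0 h1 Λ S0 X
  have d := R_nonneg (al := al) (x := y) (y := x) (z := z) h0 h1 Λ S0 X
  have e : ∑ Y ∈ 𝒴, Dt al x y z p Λ S0 X Y ≤
      (∑ Y ∈ 𝒴, Est p Λ S0 (fW x y X Y)) * Est p Λ S0 (fL al z) := by
    rw [Finset.sum_mul]
    apply Finset.sum_le_sum
    intro Y _
    have := Z_nonneg (al := al) (x := x) (y := y) (z := z) h0 h1 Λ S0 X Y
    unfold Dt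
    linarith
  have f : ∑ Y ∈ 𝒴, Est p Λ S0 (fW x y X Y) ≤ Est p Λ S0 (fR al y x z X) := by
    rw [← Est_sum]
    exact Est_mono h0 h1 fun T _ => sum_fW_le' 𝒴 h
  have g := mul_le_mul_of_nonneg_right f a
  have i := mul_le_mul_of_nonneg_right hs a
  have j := mul_nonneg c (by linarith : 0 ≤ 1 - Est p Λ S0 (fL al z))
  have k := mul_nonneg d a
  have m := mul_nonneg c a
  unfold Phi
  nlinarith

/-- No unrevealed edge leaves the cluster of `z`. -/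
lemma cl_end {Λ S0 : Finset (Sym2 V)}
    (h : ∀ c u : V, s(c, u) ∈ Λ → Cn S0 z c → Cn S0 z u) {S : Finset (Sym2 V)} (hS : S ⊆ Λ) :
    cl (S0 ∪ S) z = cl S0 z := by
  apply Finset.Subset.antisymm _ (cl_mono Finset.subset_union_left z)
  intro v hv
  rw [mem_cl] at hv ⊢
  have := Cn_closed (S := S0 ∪ S) (A := {v | Cn S0 z v}) (x := z) ?_ (Cn.refl S0 z) hv
  · exact this
  · intro a ha b hab
    rcases Finset.mem_union.1 hab with h' | h'
    · exact Cn.trans ha (Cn_of_mem h')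
    · exact h a b (hS h') ha

lemma end_le (h0 : 0 ≤ p) (h1 : p ≤ 1) {Λ S0 : Finset (Sym2 V)}
    (h : ∀ c u : V, s(c, u) ∈ Λ → Cn S0 z c → Cn S0 z u) (X Y : Finset V) :
    Dt al x y z p Λ S0 X Y ≤ 0 := by
  unfold Dt
  have hL : Est p Λ S0 (fL al z) = I1 (al (cl S0 z)) := by
    unfold Est
    rw [Ex_congr (G := fun _ => I1 (al (cl S0 z))) p, Ex_const]
    intro S hS
    show I1 (al (cl (S0 ∪ S) z)) = _
    rw [cl_end h hS]
  rw [hL]
  by_cases ha : al (cl S0 z)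
  · rw [I1_true ha, mul_one, sub_nonpos]
    unfold Est
    apply Ex_mono h0 h1
    intro S hS
    apply I1_mono
    rintro ⟨h2, h3⟩
    refine ⟨h2, h3, ?_⟩
    rw [cl_end h hS]
    exact ha
  · rw [I1_false ha, mul_zero, zero_sub, neg_nonpos]
    exact Z_nonneg h0 h1 Λ S0 X Y

lemma pos_of_mul_pos_of_pos_left' {a b : ℝ} (h : 0 < a * b) (ha : 0 ≤ a) : 0 < b := by
  by_contra hb
  push Not at hb
  nlinarith

/-- The potential of `Y` pays for the touches of the clusters of `x`. -/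
lemma pay (h0 : 0 ≤ p) (h1 : p ≤ 1) (hal : ∀ A B : Finset V, A ⊆ B → al A → al B)
    {Λ S0 : Finset (Sym2 V)} {c : V} (he : s(c, u) ∈ Λ) (hzc : Cn S0 z c)
    {Y : Finset V} (hx : x ∉ Y) (hz : z ∉ Y)
    (hs : 4 * Est p Λ S0 (fH al x y z Y) < Est p Λ S0 (fR al x y z Y)) :
    Est p (Λ.erase s(c, u)) S0 (fP al x y z u Y) ≤
      (Est p (Λ.erase s(c, u)) (insert s(c, u) S0) (fH al x y z Y) -
        Est p (Λ.erase s(c, u)) S0 (fH al x y z Y)) +
      (Est p (Λ.erase s(c, u)) S0 (fR al x y z Y) -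
        Est p (Λ.erase s(c, u)) (insert s(c, u) S0) (fR al x y z Y)) / 4 := by
  by_cases hu : u ∈ Y
  · have e1 : Est p (Λ.erase s(c, u)) (insert s(c, u) S0) (fH al x y z Y) = 0 := by
      rw [Est_open]
      unfold Est
      rw [Ex_congr (G := fun _ => (0 : ℝ)) p, Ex_const]
      intro S _
      exact fH_zero (hzc.mono Finset.subset_union_left) hz hu
    have e2 : Est p (Λ.erase s(c, u)) (insert s(c, u) S0) (fR al x y z Y) = 0 := by
      rw [Est_open]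
      unfold Est
      rw [Ex_congr (G := fun _ => (0 : ℝ)) p, Ex_const]
      intro S _
      exact fR_zero (hzc.mono Finset.subset_union_left) hz hu
    have e3 : Est p (Λ.erase s(c, u)) S0 (fP al x y z u Y) = 0 := by
      unfold Est
      rw [Ex_congr (G := fun _ => (0 : ℝ)) p, Ex_const]
      intro S _
      exact fP_zero hx hu
    rw [Est_step p S0 he, Est_step p S0 he (fR al x y z Y), e1, e2, mul_zero, zero_add,
      zero_add] at hs
    rw [e1, e2, e3]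
    have h2 : 0 < (1 - p) * (Est p (Λ.erase s(c, u)) S0 (fR al x y z Y) -
      4 * Est p (Λ.erase s(c, u)) S0 (fH al x y z Y)) := by nlinarith
    have h3 := pos_of_mul_pos_of_pos_left' h2 (by linarith : 0 ≤ 1 - p)
    linarith
  · have e1 : Est p (Λ.erase s(c, u)) S0 (fP al x y z u Y) +
        Est p (Λ.erase s(c, u)) S0 (fH al x y z Y) ≤
        Est p (Λ.erase s(c, u)) (insert s(c, u) S0) (fH al x y z Y) := by
      rw [Est_open, ← Est_add]
      exact Est_mono h0 h1 fun T hT => fH_gain hal (hzc.mono hT) hz hu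
    have e2 : Est p (Λ.erase s(c, u)) (insert s(c, u) S0) (fR al x y z Y) ≤
        Est p (Λ.erase s(c, u)) S0 (fR al x y z Y) := by
      rw [Est_open]
      exact Est_mono h0 h1 fun T hT => fR_loss (hzc.mono hT) hz
    linarith

/-- The touches of all pairs are paid by the touches of the single clusters. -/
lemma touch_le (h0 : 0 ≤ p) (h1 : p ≤ 1) {Λ S0 : Finset (Sym2 V)} {c : V} (hzc : Cn S0 z c)
    (𝒳 𝒴 : Finset (Finset V)) (h𝒳 : ∀ X ∈ 𝒳, al X ∧ y ∉ X ∧ z ∉ X)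
    (h𝒴 : ∀ Y ∈ 𝒴, al Y ∧ x ∉ Y ∧ z ∉ Y) :
    ∑ X ∈ 𝒳, ∑ Y ∈ 𝒴, (Est p Λ S0 (fW x y X Y) - Est p Λ (insert s(c, u) S0) (fW x y X Y)) ≤
      ∑ Y ∈ 𝒴, Est p Λ S0 (fP al x y z u Y) + ∑ X ∈ 𝒳, Est p Λ S0 (fP al y x z u X) := by
  have e1 : ∑ X ∈ 𝒳, ∑ Y ∈ 𝒴,
      (Est p Λ S0 (fW x y X Y) - Est p Λ (insert s(c, u) S0) (fW x y X Y)) ≤
      ∑ X ∈ 𝒳, ∑ Y ∈ 𝒴, (Est p Λ S0 (fun T => I1 (cl T x = X ∧ cl T y = Y ∧ u ∈ X)) +
        Est p Λ S0 (fun T => I1 (cl T x = X ∧ cl T y = Y ∧ u ∈ Y))) := by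
    apply Finset.sum_le_sum
    intro X hX
    apply Finset.sum_le_sum
    intro Y hY
    rw [Est_open, ← Est_sub, ← Est_add]
    exact Est_mono h0 h1 fun T hT => fW_drop (hzc.mono hT) (h𝒳 X hX).2.2 (h𝒴 Y hY).2.2
  refine e1.trans ?_
  simp only [Finset.sum_add_distrib]
  apply add_le_add
  · rw [Finset.sum_comm]
    apply Finset.sum_le_sum
    intro Y _
    rw [← Est_sum]
    exact Est_mono h0 h1 fun T _ => sum_fP_le 𝒳 h𝒳
  · apply Finset.sum_le_sum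
    intro X _
    rw [← Est_sum]
    exact Est_mono h0 h1 fun T _ => sum_fP_le' 𝒴 h𝒴

lemma Dt_step {Λ : Finset (Sym2 V)} (S0 : Finset (Sym2 V)) {e : Sym2 V} (he : e ∈ Λ)
    (X Y : Finset V) :
    Dt al x y z p Λ S0 X Y = p * Dt al x y z p (Λ.erase e) (insert e S0) X Y +
      (1 - p) * Dt al x y z p (Λ.erase e) S0 X Y +
      p * (1 - p) * (Est p (Λ.erase e) (insert e S0) (fL al z) - Est p (Λ.erase e) S0 (fL al z)) *
        (Est p (Λ.erase e) S0 (fW x y X Y) - Est p (Λ.erase e) (insert e S0) (fW x y X Y)) := by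
  unfold Dt
  rw [Est_step p S0 he (fW x y X Y), Est_step p S0 he (fL al z), Est_step p S0 he (fZ al x y z X Y)]
  ring

lemma Phi_step {Λ : Finset (Sym2 V)} (S0 : Finset (Sym2 V)) {e : Sym2 V} (he : e ∈ Λ)
    (Y : Finset V) :
    Phi al x y z p Λ S0 Y = p * Phi al x y z p (Λ.erase e) (insert e S0) Y +
      (1 - p) * Phi al x y z p (Λ.erase e) S0 Y +
      p * (1 - p) * (Est p (Λ.erase e) (insert e S0) (fL al z) - Est p (Λ.erase e) S0 (fL al z)) *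
        ((Est p (Λ.erase e) (insert e S0) (fH al x y z Y) -
          Est p (Λ.erase e) S0 (fH al x y z Y)) +
        (Est p (Λ.erase e) S0 (fR al x y z Y) -
          Est p (Λ.erase e) (insert e S0) (fR al x y z Y)) / 4) := by
  unfold Phi
  rw [Est_step p S0 he (fH al x y z Y), Est_step p S0 he (fL al z),
    Est_step p S0 he (fR al x y z Y)]
  ring

theorem main_ind (h0 : 0 ≤ p) (h1 : p ≤ 1) (hal : ∀ A B : Finset V, A ⊆ B → al A → al B) (n : ℕ) :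
    ∀ (Λ S0 : Finset (Sym2 V)) (𝒳 𝒴 : Finset (Finset V)), Λ.card + 𝒳.card + 𝒴.card ≤ n →
    (∀ X ∈ 𝒳, al X ∧ y ∉ X ∧ z ∉ X) → (∀ Y ∈ 𝒴, al Y ∧ x ∉ Y ∧ z ∉ Y) →
    ∑ X ∈ 𝒳, ∑ Y ∈ 𝒴, Dt al x y z p Λ S0 X Y ≤
      ∑ Y ∈ 𝒴, Phi al x y z p Λ S0 Y + ∑ X ∈ 𝒳, Phi al y x z p Λ S0 X := by
  induction n with
  | zero =>
    intro Λ S0 𝒳 𝒴 hn _ _
    have e1 : 𝒳 = ∅ := Finset.card_eq_zero.1 (by omega)
    have e2 : 𝒴 = ∅ := Finset.card_eq_zero.1 (by omega)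
    rw [e1, e2]
    simp
  | succ n ih =>
    intro Λ S0 𝒳 𝒴 hn h𝒳 h𝒴
    by_cases hY : ∃ Y ∈ 𝒴, Est p Λ S0 (fR al x y z Y) ≤ 4 * Est p Λ S0 (fH al x y z Y)
    · obtain ⟨Y, hY, hs⟩ := hY
      have hc := Finset.card_erase_add_one hY
      have i1 := ih Λ S0 𝒳 (𝒴.erase Y) (by omega) h𝒳 fun Y' h' => h𝒴 Y' (Finset.mem_of_mem_erase h')
      have i2 := row_le h0 h1 Λ S0 𝒳 Y h𝒳 hs
      have e1 : ∑ X ∈ 𝒳, ∑ Y ∈ 𝒴, Dt al x y z p Λ S0 X Y =
          ∑ X ∈ 𝒳, Dt al x y z p Λ S0 X Y +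
            ∑ X ∈ 𝒳, ∑ Y' ∈ 𝒴.erase Y, Dt al x y z p Λ S0 X Y' := by
        rw [← Finset.sum_add_distrib]
        apply Finset.sum_congr rfl
        intro X _
        rw [Finset.add_sum_erase 𝒴 (fun Y' => Dt al x y z p Λ S0 X Y') hY]
      have e2 := Finset.add_sum_erase 𝒴 (fun Y' => Phi al x y z p Λ S0 Y') hY
      rw [e1, ← e2]
      linarith
    by_cases hX : ∃ X ∈ 𝒳, Est p Λ S0 (fR al y x z X) ≤ 4 * Est p Λ S0 (fH al y x z X)
    · obtain ⟨X, hX, hs⟩ := hX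
      have hc := Finset.card_erase_add_one hX
      have i1 := ih Λ S0 (𝒳.erase X) 𝒴 (by omega) (fun X' h' => h𝒳 X' (Finset.mem_of_mem_erase h'))
        h𝒴
      have i2 := col_le h0 h1 Λ S0 𝒴 X h𝒴 hs
      have e1 := Finset.add_sum_erase 𝒳 (fun X' => ∑ Y ∈ 𝒴, Dt al x y z p Λ S0 X' Y) hX
      have e2 := Finset.add_sum_erase 𝒳 (fun X' => Phi al y x z p Λ S0 X') hX
      rw [← e1, ← e2]
      linarith
    push Not at hX hY
    by_cases hE : ∃ c u : V, s(c, u) ∈ Λ ∧ Cn S0 z c ∧ ¬ Cn S0 z u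
    · obtain ⟨c, u, he, hzc, -⟩ := hE
      have hc := Finset.card_erase_add_one he
      have io := ih (Λ.erase s(c, u)) (insert s(c, u) S0) 𝒳 𝒴 (by omega) h𝒳 h𝒴
      have ic := ih (Λ.erase s(c, u)) S0 𝒳 𝒴 (by omega) h𝒳 h𝒴
      have hL : 0 ≤ Est p (Λ.erase s(c, u)) (insert s(c, u) S0) (fL al z) -
          Est p (Λ.erase s(c, u)) S0 (fL al z) := by
        rw [Est_open, sub_nonneg]
        exact Est_mono h0 h1 fun T _ => fL_mono hal (Finset.subset_insert _ _)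
      have hδ := mul_nonneg (mul_nonneg h0 (by linarith : 0 ≤ 1 - p)) hL
      have key : ∑ X ∈ 𝒳, ∑ Y ∈ 𝒴, (Est p (Λ.erase s(c, u)) S0 (fW x y X Y) -
            Est p (Λ.erase s(c, u)) (insert s(c, u) S0) (fW x y X Y)) ≤
          ∑ Y ∈ 𝒴, ((Est p (Λ.erase s(c, u)) (insert s(c, u) S0) (fH al x y z Y) -
            Est p (Λ.erase s(c, u)) S0 (fH al x y z Y)) +
            (Est p (Λ.erase s(c, u)) S0 (fR al x y z Y) -
            Est p (Λ.erase s(c, u)) (insert s(c, u) S0) (fR al x y z Y)) / 4) +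
          ∑ X ∈ 𝒳, ((Est p (Λ.erase s(c, u)) (insert s(c, u) S0) (fH al y x z X) -
            Est p (Λ.erase s(c, u)) S0 (fH al y x z X)) +
            (Est p (Λ.erase s(c, u)) S0 (fR al y x z X) -
            Est p (Λ.erase s(c, u)) (insert s(c, u) S0) (fR al y x z X)) / 4) := by
        refine (touch_le h0 h1 hzc 𝒳 𝒴 h𝒳 h𝒴).trans ?_
        apply add_le_add
        · exact Finset.sum_le_sum fun Y hY' =>
            pay h0 h1 hal he hzc (h𝒴 Y hY').2.1 (h𝒴 Y hY').2.2 (hY Y hY')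
        · exact Finset.sum_le_sum fun X hX' =>
            pay h0 h1 hal he hzc (h𝒳 X hX').2.1 (h𝒳 X hX').2.2 (hX X hX')
      simp only [Dt_step S0 he, Phi_step S0 he, Finset.sum_add_distrib, ← Finset.mul_sum] at key ⊢
      have j1 := mul_le_mul_of_nonneg_left io h0
      have j2 := mul_le_mul_of_nonneg_left ic (by linarith : 0 ≤ 1 - p)
      have j3 := mul_le_mul_of_nonneg_left key hδ
      simp only [mul_add, ← Finset.sum_add_distrib] at j1 j2 j3 ⊢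
      linarith
    · push Not at hE
      have e1 : ∑ X ∈ 𝒳, ∑ Y ∈ 𝒴, Dt al x y z p Λ S0 X Y ≤ 0 :=
        Finset.sum_nonpos fun X _ => Finset.sum_nonpos fun Y _ => end_le h0 h1 hE X Y
      have e2 : 0 ≤ ∑ Y ∈ 𝒴, Phi al x y z p Λ S0 Y :=
        Finset.sum_nonneg fun Y _ => Phi_nonneg h0 h1 Λ S0 Y
      have e3 : 0 ≤ ∑ X ∈ 𝒳, Phi al y x z p Λ S0 X :=
        Finset.sum_nonneg fun X _ => Phi_nonneg h0 h1 Λ S0 X
      linarith

end main

/-! ### The three-cluster inequality -/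

/-- **The three-cluster inequality** for an arbitrary increasing property of the own cluster. -/
theorem tc {p : ℝ} (h0 : 0 ≤ p) (h1 : p ≤ 1) (Λ : Finset (Sym2 V)) (al : Finset V → Prop)
    (hal : ∀ A B : Finset V, A ⊆ B → al A → al B) (x y z : V) :
    Ex p Λ (fun S => I1 (al (cl S x) ∧ al (cl S y) ∧ ¬ Cn S x y)) *
        Ex p Λ (fun S => I1 (al (cl S z))) ≤
      11 * Ex p Λ (fun S => I1 ((al (cl S x) ∧ al (cl S y) ∧ ¬ Cn S x y) ∧ al (cl S z))) := by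
  classical
  set 𝒳 : Finset (Finset V) :=
    (Λ.powerset.image (fun S => cl S x)).filter (fun X => al X ∧ y ∉ X ∧ z ∉ X) with h𝒳
  set 𝒴 : Finset (Finset V) :=
    (Λ.powerset.image (fun S => cl S y)).filter (fun Y => al Y ∧ x ∉ Y ∧ z ∉ Y) with h𝒴
  have m𝒳 : ∀ X ∈ 𝒳, al X ∧ y ∉ X ∧ z ∉ X := fun X hX => (Finset.mem_filter.1 hX).2
  have m𝒴 : ∀ Y ∈ 𝒴, al Y ∧ x ∉ Y ∧ z ∉ Y := fun Y hY => (Finset.mem_filter.1 hY).2
  have key := main_ind (x := x) (y := y) (z := z) h0 h1 hal _ Λ ∅ 𝒳 𝒴 le_rfl m𝒳 m𝒴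
  have hE : ∀ f : Finset (Sym2 V) → ℝ, Est p Λ ∅ f = Ex p Λ f := by
    intro f
    unfold Est
    simp only [Finset.empty_union]
  unfold Dt Phi at key
  simp only [hE] at key
  -- the events
  set R : Finset (Sym2 V) → Prop := fun S =>
    al (cl S x) ∧ al (cl S y) ∧ ¬ Cn S x y ∧ ¬ Cn S z x ∧ ¬ Cn S z y with hR
  set A : Finset (Sym2 V) → Prop := fun S =>
    al (cl S x) ∧ al (cl S y) ∧ ¬ Cn S x y ∧ Cn S z y with hA
  set B : Finset (Sym2 V) → Prop := fun S =>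
    al (cl S x) ∧ al (cl S y) ∧ ¬ Cn S x y ∧ Cn S z x with hB
  set L : ℝ := Ex p Λ (fL al z) with hL
  have hL0 : 0 ≤ L := Ex_nonneg h0 h1 fun S _ => I1_nonneg _
  have hL1 : L ≤ 1 := Ex_le_const h0 h1 fun S _ => I1_le_one _
  have hR0 : 0 ≤ Ex p Λ (fun S => I1 (R S)) := Ex_nonneg h0 h1 fun S _ => I1_nonneg _
  have hA0 : 0 ≤ Ex p Λ (fun S => I1 (A S)) := Ex_nonneg h0 h1 fun S _ => I1_nonneg _
  have hB0 : 0 ≤ Ex p Λ (fun S => I1 (B S)) := Ex_nonneg h0 h1 fun S _ => I1_nonneg _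
  -- the sum of the `W`
  have s1 : Ex p Λ (fun S => I1 (R S)) ≤ ∑ X ∈ 𝒳, ∑ Y ∈ 𝒴, Ex p Λ (fW x y X Y) := by
    simp only [← Ex_sum]
    apply Ex_mono h0 h1
    intro S hS
    by_cases h : R S
    · have hh := h
      rw [hR] at hh
      obtain ⟨a1, a2, a3, a4, a5⟩ := hh
      have b1 : cl S x ∈ 𝒳 := by
        rw [h𝒳, Finset.mem_filter]
        refine ⟨Finset.mem_image.2 ⟨S, Finset.mem_powerset.2 hS, rfl⟩, a1, ?_, ?_⟩
        · rw [mem_cl]; exact a3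
        · rw [mem_cl]; exact fun h' => a4 h'.symm
      have b2 : cl S y ∈ 𝒴 := by
        rw [h𝒴, Finset.mem_filter]
        refine ⟨Finset.mem_image.2 ⟨S, Finset.mem_powerset.2 hS, rfl⟩, a2, ?_, ?_⟩
        · rw [mem_cl]; exact fun h' => a3 h'.symm
        · rw [mem_cl]; exact fun h' => a5 h'.symm
      have c1 : fW x y (cl S x) (cl S y) S ≤ ∑ Y ∈ 𝒴, fW x y (cl S x) Y S :=
        Finset.single_le_sum (f := fun Y => fW x y (cl S x) Y S) (fun Y _ => I1_nonneg _) b2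
      have c2 : ∑ Y ∈ 𝒴, fW x y (cl S x) Y S ≤ ∑ X ∈ 𝒳, ∑ Y ∈ 𝒴, fW x y X Y S :=
        Finset.single_le_sum (f := fun X => ∑ Y ∈ 𝒴, fW x y X Y S)
          (fun X _ => Finset.sum_nonneg fun Y _ => I1_nonneg _) b1
      have c3 : fW x y (cl S x) (cl S y) S = 1 := I1_true ⟨rfl, rfl⟩
      rw [I1_true h]
      linarith
    · rw [I1_false h]
      exact Finset.sum_nonneg fun X _ => Finset.sum_nonneg fun Y _ => I1_nonneg _
  -- the sum of the `Z`
  have s2 : ∑ X ∈ 𝒳, ∑ Y ∈ 𝒴, Ex p Λ (fZ al x y z X Y) ≤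
      Ex p Λ (fun S => I1 (R S ∧ al (cl S z))) := by
    simp only [← Ex_sum]
    apply Ex_mono h0 h1
    intro S _
    have c1 : ∑ X ∈ 𝒳, ∑ Y ∈ 𝒴, fZ al x y z X Y S ≤
        ∑ X ∈ 𝒳, I1 (cl S x = X ∧ R S ∧ al (cl S z)) := by
      apply Finset.sum_le_sum
      intro X hX
      apply sum_I1_le
      · rintro Y hY ⟨d1, d2, d3⟩
        obtain ⟨e1, e2, e3⟩ := m𝒳 X hX
        obtain ⟨f1, f2, f3⟩ := m𝒴 Y hY
        rw [← d1, mem_cl] at e2 e3
        rw [← d1] at e1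
        rw [← d2, mem_cl] at f3
        rw [← d2] at f1
        exact ⟨d1, ⟨e1, f1, e2, fun h => e3 h.symm, fun h => f3 h.symm⟩, d3⟩
      · rintro Y - Y' - ⟨-, h1, -⟩ ⟨-, h2, -⟩
        rw [← h1, ← h2]
    refine c1.trans ?_
    apply sum_I1_le
    · rintro X _ ⟨-, h⟩
      exact h
    · rintro X - X' - ⟨h1, -⟩ ⟨h2, -⟩
      rw [← h1, ← h2]
  -- the sums of the `H`, `R`
  have s3 : ∑ Y ∈ 𝒴, Ex p Λ (fH al x y z Y) ≤ Ex p Λ (fun S => I1 (B S)) := by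
    simp only [← Ex_sum]
    apply Ex_mono h0 h1
    intro S _
    apply sum_I1_le
    · rintro Y hY ⟨d1, d2, d3⟩
      obtain ⟨f1, f2, f3⟩ := m𝒴 Y hY
      rw [← d1] at f1
      rw [← d1, mem_cl] at f2
      exact ⟨d2, f1, fun h => f2 h.symm, d3⟩
    · rintro Y - Y' - ⟨h1, -⟩ ⟨h2, -⟩
      rw [← h1, ← h2]
  have s4 : ∑ Y ∈ 𝒴, Ex p Λ (fR al x y z Y) ≤ Ex p Λ (fun S => I1 (R S)) := by
    simp only [← Ex_sum]
    apply Ex_mono h0 h1
    intro S _
    apply sum_I1_le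
    · rintro Y hY ⟨d1, d2, d3⟩
      obtain ⟨f1, f2, f3⟩ := m𝒴 Y hY
      rw [← d1] at f1
      rw [← d1, mem_cl] at f2 f3
      exact ⟨d2, f1, fun h => f2 h.symm, d3, fun h => f3 h.symm⟩
    · rintro Y - Y' - ⟨h1, -⟩ ⟨h2, -⟩
      rw [← h1, ← h2]
  have s5 : ∑ X ∈ 𝒳, Ex p Λ (fH al y x z X) ≤ Ex p Λ (fun S => I1 (A S)) := by
    simp only [← Ex_sum]
    apply Ex_mono h0 h1
    intro S _
    apply sum_I1_le
    · rintro X hX ⟨d1, d2, d3⟩
      obtain ⟨f1, f2, f3⟩ := m𝒳 X hX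
      rw [← d1] at f1
      rw [← d1, mem_cl] at f2
      exact ⟨f1, d2, f2, d3⟩
    · rintro X - X' - ⟨h1, -⟩ ⟨h2, -⟩
      rw [← h1, ← h2]
  have s6 : ∑ X ∈ 𝒳, Ex p Λ (fR al y x z X) ≤ Ex p Λ (fun S => I1 (R S)) := by
    simp only [← Ex_sum]
    apply Ex_mono h0 h1
    intro S _
    apply sum_I1_le
    · rintro X hX ⟨d1, d2, d3⟩
      obtain ⟨f1, f2, f3⟩ := m𝒳 X hX
      rw [← d1] at f1
      rw [← d1, mem_cl] at f2 f3
      exact ⟨f1, d2, f2, fun h => f3 h.symm, d3⟩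
    · rintro X - X' - ⟨h1, -⟩ ⟨h2, -⟩
      rw [← h1, ← h2]
  -- splitting of the event
  have t1 : Ex p Λ (fun S => I1 (al (cl S x) ∧ al (cl S y) ∧ ¬ Cn S x y)) ≤
      Ex p Λ (fun S => I1 (R S)) + Ex p Λ (fun S => I1 (A S)) + Ex p Λ (fun S => I1 (B S)) := by
    rw [← Ex_add, ← Ex_add]
    apply Ex_mono h0 h1
    intro S _
    have a := I1_nonneg (R S)
    have b := I1_nonneg (A S)
    have c := I1_nonneg (B S)
    by_cases h : al (cl S x) ∧ al (cl S y) ∧ ¬ Cn S x y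
    · rw [I1_true h]
      by_cases h2 : Cn S z x
      · have : I1 (B S) = 1 := I1_true ⟨h.1, h.2.1, h.2.2, h2⟩
        linarith
      · by_cases h3 : Cn S z y
        · have : I1 (A S) = 1 := I1_true ⟨h.1, h.2.1, h.2.2, h3⟩
          linarith
        · have : I1 (R S) = 1 := I1_true ⟨h.1, h.2.1, h.2.2, h2, h3⟩
          linarith
    · rw [I1_false h]
      linarith
  have t2 : Ex p Λ (fun S => I1 (R S ∧ al (cl S z))) + Ex p Λ (fun S => I1 (A S)) +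
      Ex p Λ (fun S => I1 (B S)) ≤
      Ex p Λ (fun S => I1 ((al (cl S x) ∧ al (cl S y) ∧ ¬ Cn S x y) ∧ al (cl S z))) := by
    rw [← Ex_add, ← Ex_add]
    apply Ex_mono h0 h1
    intro S _
    have nn := I1_nonneg ((al (cl S x) ∧ al (cl S y) ∧ ¬ Cn S x y) ∧ al (cl S z))
    by_cases hb : B S
    · have hb' := hb
      rw [hB] at hb'
      obtain ⟨b1, b2, b3, b4⟩ := hb'
      have e1 : I1 (R S ∧ al (cl S z)) = 0 := I1_false fun h => h.1.2.2.2.1 b4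
      have e2 : I1 (A S) = 0 := I1_false fun h => b3 (b4.symm.trans h.2.2.2)
      have e3 : I1 ((al (cl S x) ∧ al (cl S y) ∧ ¬ Cn S x y) ∧ al (cl S z)) = 1 :=
        I1_true ⟨⟨b1, b2, b3⟩, by rw [cl_eq b4]; exact b1⟩
      rw [e1, e2, e3, I1_true hb]
      norm_num
    · by_cases ha : A S
      · have ha' := ha
        rw [hA] at ha'
        obtain ⟨b1, b2, b3, b4⟩ := ha'
        have e1 : I1 (R S ∧ al (cl S z)) = 0 := I1_false fun h => h.1.2.2.2.2 b4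
        have e3 : I1 ((al (cl S x) ∧ al (cl S y) ∧ ¬ Cn S x y) ∧ al (cl S z)) = 1 :=
          I1_true ⟨⟨b1, b2, b3⟩, by rw [cl_eq b4]; exact b2⟩
        rw [e1, e3, I1_true ha, I1_false hb]
        norm_num
      · rw [I1_false ha, I1_false hb, add_zero, add_zero]
        apply I1_mono
        rintro ⟨⟨c1, c2, c3, -, -⟩, c5⟩
        exact ⟨⟨c1, c2, c3⟩, c5⟩
  -- arithmetic
  simp only [Finset.sum_sub_distrib, Finset.sum_add_distrib, ← Finset.sum_mul,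
    ← Finset.sum_div] at key
  have u1 := mul_le_mul_of_nonneg_right s1 hL0
  have u3 := mul_le_mul_of_nonneg_right s3 (by linarith : 0 ≤ 5 - L)
  have u4 := mul_le_mul_of_nonneg_right s4 hL0
  have u5 := mul_le_mul_of_nonneg_right s5 (by linarith : 0 ≤ 5 - L)
  have u6 := mul_le_mul_of_nonneg_right s6 hL0
  have u7 := mul_le_mul_of_nonneg_right t1 hL0
  have u8 := mul_le_mul_of_nonneg_left hL1 hA0
  have u9 := mul_le_mul_of_nonneg_left hL1 hB0
  have u10 := mul_nonneg hA0 hL0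
  have u11 := mul_nonneg hB0 hL0
  have hRz : 0 ≤ Ex p Λ (fun S => I1 (R S ∧ al (cl S z))) :=
    Ex_nonneg h0 h1 fun S _ => I1_nonneg _
  show _ * L ≤ _
  nlinarith

/-! ### The forms used in the window -/

omit [DecidableEq V] in
lemma card_inc (n : ℕ) (A B : Finset V) (h : A ⊆ B) (hA : n ≤ A.card) : n ≤ B.card :=
  hA.trans (Finset.card_le_card h)

theorem tc_csz {p : ℝ} (h0 : 0 ≤ p) (h1 : p ≤ 1) (Λ : Finset (Sym2 V)) (n : ℕ) (x y z : V) :
    PD p Λ n x y * Ex p Λ (fun S => I1 (n ≤ csz S z)) ≤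
      11 * Ex p Λ (fun S => DD n x y S * I1 (n ≤ csz S z)) := by
  have key := tc h0 h1 Λ (fun A => n ≤ A.card) (card_inc n) x y z
  have e1 : PD p Λ n x y =
      Ex p Λ (fun S => I1 (n ≤ (cl S x).card ∧ n ≤ (cl S y).card ∧ ¬ Cn S x y)) := by
    unfold PD
    apply Ex_congr
    intro S _
    unfold DD
    exact le_antisymm (I1_mono fun h => ⟨h.2.1, h.2.2, h.1⟩) (I1_mono fun h => ⟨h.2.2, h.1, h.2.1⟩)
  have e2 : Ex p Λ (fun S => DD n x y S * I1 (n ≤ csz S z)) =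
      Ex p Λ (fun S => I1 ((n ≤ (cl S x).card ∧ n ≤ (cl S y).card ∧ ¬ Cn S x y) ∧
        n ≤ (cl S z).card)) := by
    apply Ex_congr
    intro S _
    rw [I1_and]
    unfold DD
    congr 1
    exact le_antisymm (I1_mono fun h => ⟨h.2.1, h.2.2, h.1⟩) (I1_mono fun h => ⟨h.2.2, h.1, h.2.1⟩)
  rw [e1, e2]
  exact key

/-- **(TC)** -/
theorem tcStmt : TCStmt := fun _V _ _p h0 h1 Λ n x y z => tc_csz h0 h1 Λ n x y z

/-- **(QT)** -/
theorem qt {p : ℝ} (h0 : 0 ≤ p) (h1 : p ≤ 1) (Λ : Finset (Sym2 V)) (n : ℕ) (x y z : V) :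
    Ex p Λ (fun S => I1 (n ≤ csz S z)) * PD p Λ n x y ≤ 11 * (PD p Λ n x z + PD p Λ n z y) := by
  have key := tc_csz h0 h1 Λ n x y z
  have h : Ex p Λ (fun S => DD n x y S * I1 (n ≤ csz S z)) ≤ PD p Λ n x z + PD p Λ n z y := by
    unfold PD
    rw [← Ex_add]
    apply Ex_mono h0 h1
    intro S _
    unfold DD
    rw [← I1_and]
    by_cases hh : (¬ Cn S x y ∧ n ≤ csz S x ∧ n ≤ csz S y) ∧ n ≤ csz S z
    · obtain ⟨⟨a1, a2, a3⟩, a4⟩ := hh
      rw [I1_true ⟨⟨a1, a2, a3⟩, a4⟩]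
      by_cases hz : Cn S x z
      · have h2 : ¬ Cn S z y := fun h => a1 (hz.trans h)
        have e : I1 (¬ Cn S z y ∧ n ≤ csz S z ∧ n ≤ csz S y) = 1 := I1_true ⟨h2, a4, a3⟩
        have := I1_nonneg (¬ Cn S x z ∧ n ≤ csz S x ∧ n ≤ csz S z)
        linarith
      · have e : I1 (¬ Cn S x z ∧ n ≤ csz S x ∧ n ≤ csz S z) = 1 := I1_true ⟨hz, a2, a4⟩
        have := I1_nonneg (¬ Cn S z y ∧ n ≤ csz S z ∧ n ≤ csz S y)
        linarith
    · rw [I1_false hh]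
      exact add_nonneg (I1_nonneg _) (I1_nonneg _)
  linarith

theorem qtStmt (V : Type) [DecidableEq V] : QTStmt V :=
  ⟨11, by norm_num, fun _p h0 h1 Λ n x y z => qt h0 h1 Λ n x y z⟩

end Vale.Agent.P151.TC.H295
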